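import Vale.Agent.P331.Assembly

/-!
One sample for every element gives a constant competitive ratio on every matroid when all
elements share one unknown law.
-/

open MeasureTheory Vale.Agent.P331
open scoped NNReal ENNReal

namespace Vale.Agent.Results.P331.IdenticalLaws

theorem result :
    ∃ c : ℝ, 0 < c ∧ ∀ (α : Type) [Fintype α] (M : Matroid α), M.E = Set.univ →
      ∃ (R : Type) (_ : MeasurableSpace R) (P : Measure R) (_ : IsProbabilityMeasure P)
        (acc : (α → ℝ≥0) → R → Finset α → α → ℝ≥0 → Prop),
        (∀ A e, MeasurableSet {p : ((α → ℝ≥0) × R) × ℝ≥0 | acc p.1.1 p.1.2 A e p.2}) ∧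
        (∀ S r V l, M.Indep (run acc S r V l : Set α)) ∧
        ∀ (D : Measure ℝ≥0) [IsProbabilityMeasure D],
          ENNReal.ofReal c * ∫⁻ V, opt M V ∂(Measure.pi fun _ : α => D) ≤
            ∫⁻ p, worst acc p.1.1 p.1.2 p.2
              ∂(((Measure.pi fun _ : α => D).prod P).prod (Measure.pi fun _ : α => D)) := by
  refine ⟨1 / 100000, by norm_num, fun α _ M hE => ?_⟩
  obtain ⟨lev, hlev⟩ := exists_free M hE
  exact ⟨Seed α, inferInstance, seedLaw α, inferInstance, rule M lev, measurableSet_rule,
    run_indep hE, fun D _ => competitive D hE hlev⟩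

end Vale.Agent.Results.P331.IdenticalLaws
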